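import Vale.Agent.P305GL.Defs
import Vale.Agent.P305EN.Stall
import Vale.Agent.P305BL.Store

/-!
# A stall of the box bounds the gap
-/

namespace Vale.Agent.P305ST

open Vale.Agent.P305 Vale.Agent.P305LC Vale.Agent.P305N Vale.Agent.P305BL Vale.Agent.P305GH
  Vale.Agent.P305GL Finset

theorem exists_nbr (p : Pr) {u w : ℕ} (hw : w ∈ p.adj.get u) (hl : (p.adj.get u).length ≤ 3) :
    ∃ i < p.deg u, i < 3 ∧ p.nbr u i = w := by
  unfold Pr.deg Pr.nbr
  generalize p.adj.get u = l at hw hl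
  rcases l with _ | ⟨a, _ | ⟨b, _ | ⟨c, _ | ⟨d, l⟩⟩⟩⟩
  · simp at hw
  · exact ⟨0, by simp, by simp, by simpa [eq_comm] using hw⟩
  · rcases (by simpa using hw : w = a ∨ w = b) with rfl | rfl
    exacts [⟨0, by simp, by simp, by simp⟩, ⟨1, by simp, by simp, by simp⟩]
  · rcases (by simpa using hw : w = a ∨ w = b ∨ w = c) with rfl | rfl | rfl
    exacts [⟨0, by simp, by simp, by simp⟩, ⟨1, by simp, by simp, by simp⟩,
      ⟨2, by simp, by simp, by simp⟩]
  · simp at hl
    omega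

variable {x : Pm} {s : S} {g : Gs} {cur : Option ℕ} {Nw : List ℕ}

/-- The removed volume is at most the number of copies in the junk. -/
theorem vj_junk (h : Core x s g cur Nw) : (g.vj : ℤ) ≤ (2 * x.Γ * x.Q + 1 : ℕ) * g.H.wJ := by
  have a : (Ioo 0 s.nc).image (4 * ·) ⊆
      (g.H.J.filter fun v => g.H.w v ≠ 0) ∪ (s.live x.n).image s.cid.get := by
    intro a ha
    obtain ⟨j, hj, rfl⟩ := mem_image.1 ha
    rw [mem_Ioo] at hj
    have b := h.cop j hj.1 hj.2
    have c := (h.rng _ b).2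
    have key : s.own.get (s.vn (4 * j)) ≠ 0 → s.cid.get (s.vn (4 * j)) = 4 * j →
        4 * j ∈ (s.live x.n).image s.cid.get := fun q1 q2 =>
      mem_image.2 ⟨_, mem_filter.2 ⟨mem_range.2 (h.own _ q1).1, q1⟩, q2⟩
    rw [h.gh.V, mem_union, mem_union] at b
    rcases b with (b | b) | b
    · exact mem_union_left _ (mem_filter.2 ⟨b, fun q => by have := c.1 q; omega⟩)
    · have d := h.self _ (Or.inl (h.lk.I ▸ b))
      exact mem_union_right _ (key (by omega) d.2)
    · have d := h.lk.nd_ne h.net.ok b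
      rw [h.ndO _ b, S.res] at d
      split_ifs at d with q
      · have := (h.own _ d).2.2.1
        exact mem_union_right _ (key d (by omega))
      · exact (d rfl).elim
  have b := (card_le_card a).trans (card_union_le _ _)
  rw [card_image_of_injective _ fun i j (e : 4 * i = 4 * j) => by omega, Nat.card_Ioo] at b
  have c := card_image_le (s := s.live x.n) (f := s.cid.get)
  have d := h.cnt
  refine le_trans ?_ (h.gh.copies_junk.trans (le_of_eq (by push_cast; ring)))
  omega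

/-- **STALL.** -/
theorem stall : STALL := by
  intro β _ E x σ g φ γ hx hG hγ hs m hm
  obtain ⟨s, lv, bx⟩ := σ
  have h : Core x s g none [] := hG.core
  by_contra hc
  obtain ⟨j1, j2⟩ := h.acc.junk (vj_junk h) hx.V3 (by omega)
  have nc : s.nc ≤ x.n + x.Vx + 1 := by
    have a : (s.live x.n).card ≤ x.n := (card_filter_le _ _).trans (card_range _).le
    have b := (Nat.mul_le_mul_left (4 * (2 * x.Γ * x.Q + 1)) h.cm).trans hx.Vx
    have := h.cnt
    omega
  have cV : γ * (4 * g.H.G.V.card) ≤ x.Γ * (16 * (x.n + x.Vx + 1)) := by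
    have a : g.H.G.V.card ≤ 4 * s.nc :=
      (card_le_card fun a ha => mem_range.2 (h.rng a ha).1).trans (card_range _).le
    exact Nat.mul_le_mul hγ (by omega)
  have nd := fun p (hp : p ∈ g.H.P) => h.node p (h.lk.P ▸ hp)
  have key := P305EN.stall_gap (n := x.n) (A := x.A) (K := x.K) h.gh hx.Q0 hs (cV.trans_lt hx.inf)
    (V := fun p => s.bs.V x.n (s.top.get p)) (vx := s.vn) (D := s.disc x.n)
    (fun y hy z hz e => by
      rw [← (h.self y (Or.inl (h.lk.I ▸ hy))).2, e, (h.self z (Or.inl (h.lk.I ▸ hz))).2])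
    (fun p hp => (nd p hp).1.odd)
    (fun p hp q hq ne => disjoint_left.2 fun v a b =>
      ne ((((nd p hp).2 v).1 a).symm.trans (((nd q hq).2 v).1 b)))
    (fun p hp => (nd p hp).1.lt) (fun p hp u hu w hw => ?_) hm (by omega)
  · have a := h.acc.wt
    have b := h.dis
    have c := h.cm
    have d : g.H.wJ + (s.disc x.n).card ≤ 3 * x.c := by omega
    have e := mul_le_mul_of_nonneg_left d (Int.natCast_nonneg x.Q)
    have f : (3 * x.c * x.Q + x.Γ * (16 * (x.n + x.Vx + 1)) : ℤ) < x.K * x.Q := by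
      exact_mod_cast hx.gap
    have f' : (γ * (4 * g.H.G.V.card) : ℤ) ≤ x.Γ * (16 * (x.n + x.Vx + 1)) := by exact_mod_cast cV
    nlinarith
  · have hu' : s.own.get u = p := ((nd p hp).2 u).1 hu
    have hP : p ∈ g.V.P := h.lk.P ▸ hp
    have p0 : p ≠ 0 := fun e => h.net.ok.zP (e ▸ hP)
    obtain ⟨i, i1, i2, rfl⟩ := exists_nbr x.toPr ((hx.adj.mem u w).2 hw) (hx.adj.deg u)
    rcases h.pend u (hu' ▸ hP) i i1 with (q | q | ⟨k, q1, q2⟩) | q | q | q
    · exact Or.inl (((nd p hp).2 _).2 (q.trans hu'))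
    · exact Or.inr (Or.inl (mem_filter.2 ⟨mem_range.2 (hx.adj.gr.lt (hx.adj.gr.symm hw)), q⟩))
    · have k0 : g.V.tl k ≠ 0 := by rw [q2, hu']; exact p0
      obtain ⟨a, a1, a2, a3⟩ := h.lk.toG k k0
      have kI := (h.net.ok.arc k k0).2
      refine Or.inr (Or.inr ⟨a, a1, a2.trans (q2.trans hu'), Or.inr ⟨k / 3, h.lk.I ▸ kI, ?_, a3⟩⟩)
      rw [q1] at kI ⊢
      rw [← h.inn _ kI]
      exact (h.own _ fun e => h.net.ok.zI (e ▸ kI)).2.2.2.2
    · obtain ⟨-, -, o1, -, o2⟩ := h.own u (hu' ▸ p0)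
      have e : (s.cid.get u + 1 + i) / 4 = s.cid.get u / 4 := by omega
      have r : s.res (s.cid.get u + 1 + i) = p := by
        have e' : s.vn (s.cid.get u + 1 + i) = u := by rw [S.vn, e]; exact o2
        rw [S.res, e', if_pos e.symm, hu']
      obtain ⟨b1, b2⟩ := (h.gh.sl _).1 q.1
      rw [h.gh.V, mem_union, mem_union] at b1
      rcases b1 with (b | b) | b
      · exact (p0 (r ▸ h.jk _ b)).elim
      · rw [h.gh.wI _ b] at b2
        simp at b2
      · exact Or.inr (Or.inr ⟨_, b, (h.ndO _ b).trans r, Or.inl q⟩)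
    · simp at q
    · simp at q

end Vale.Agent.P305ST
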